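import Vale.Agent.P282A71.Defs
import Vale.Agent.P277Z.Oka.Noe

/-!
P282, analytic double points: the statements of the rows.
-/

open Filter Topology IsLocalRing MvPolynomial
open Vale.Agent.P298.H941

noncomputable section

namespace Vale.Agent.P282A71

/-- germs of holomorphic functions at the origin of `ℂ ^ N` -/
abbrev ON (N : ℕ) : Type := O (Fin N → ℂ)

theorem ana_proj {N : ℕ} (i : Fin N) (x : Fin N → ℂ) :
    AnalyticAt ℂ (fun z : Fin N → ℂ => z i) x :=
  (ContinuousLinearMap.proj (R := ℂ) (φ := fun _ : Fin N => ℂ) i).analyticAt x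

/-- the coordinates -/
def zc {N : ℕ} (i : Fin N) : ON N := mk (fun z => z i) (ana_proj i 0)

/-- the germ of a polynomial -/
def pl (N : ℕ) : MvPolynomial (Fin N) ℂ →ₐ[ℂ] ON N := aeval zc

/-- the extended ideal -/
def ex {N : ℕ} (I : Ideal (MvPolynomial (Fin N) ℂ)) : Ideal (ON N) := I.map (pl N)

/-- `f` induces isomorphisms `R / m ^ k ≃ S / n ^ k` -/
structure JetIso {R S : Type} [CommRing R] [CommRing S] [Algebra ℂ R] [Algebra ℂ S]
    (f : R →ₐ[ℂ] S) (m : Ideal R) (n : Ideal S) : Prop where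
  mem : ∀ (k : ℕ) (x : R), f x ∈ n ^ k ↔ x ∈ m ^ k
  dense : ∀ (k : ℕ) (s : S), ∃ x, s - f x ∈ n ^ k

/-- ROW CPL: isomorphic jets give isomorphic completions -/
def CPL : Prop :=
  ∀ (R S : Type) [CommRing R] [CommRing S] [Algebra ℂ R] [Algebra ℂ S] (f : R →ₐ[ℂ] S)
    (m : Ideal R) (n : Ideal S), JetIso f m n →
    Nonempty (AdicCompletion m R ≃ₐ[ℂ] AdicCompletion n S)

/-- ROW JET: polynomials and germs have the same jets -/
def JET : Prop :=
  ∀ N : ℕ, maximalIdeal (ON N) = Ideal.span (Set.range zc) ∧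
    JetIso (pl N) (Ideal.span (Set.range X)) (maximalIdeal (ON N))

/-- ROW SQRT: a symmetric matrix of germs which is `1` at the origin is of the form `Sᵀ S` -/
def SQRT : Prop :=
  ∀ (N m : ℕ) (H : Matrix (Fin m) (Fin m) (ON N)), H.IsSymm →
    (∀ i j, H i j ∈ maximalIdeal (ON N)) →
    ∃ S : Matrix (Fin m) (Fin m) (ON N), (∀ i j, S i j ∈ maximalIdeal (ON N)) ∧
      (1 + S).transpose * (1 + S) = 1 + H

/-- ROW INV: the inverse function theorem -/
def INV : Prop :=
  ∀ (N : ℕ) (g : (Fin N → ℂ) → Fin N → ℂ) (hg : AnalyticAt ℂ g 0) (h0 : g 0 = 0),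
    (∀ i, pull g hg h0 (zc i) - zc i ∈ maximalIdeal (ON N) ^ 2) →
    Function.Surjective (pull g hg h0)

/-- ROW MODEL: affine models exist -/
def MODEL : Prop :=
  ∀ (R : Type) [CommRing R] [IsLocalRing R] [Algebra ℂ R], Algebra.EssFiniteType ℂ R →
    Function.Surjective (algebraMap ℂ (ResidueField R)) →
    ∃ (N : ℕ) (y : Fin N → R), IsModel y

/-- ROW RAD: a holomorphic function which vanishes on a variety near the origin lies in the ideal
generated by the equations -/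
def RAD : Prop :=
  ∀ (N : ℕ) (I : Ideal (MvPolynomial (Fin N) ℂ)), I.IsPrime → (∀ p ∈ I, eval 0 p = 0) →
    ∀ (f : (Fin N → ℂ) → ℂ) (hf : AnalyticAt ℂ f 0), (∀ᶠ z in 𝓝[locus I] 0, f z = 0) →
      mk f hf ∈ ex I

end Vale.Agent.P282A71
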