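import Vale.Agent.P282A71.Main
import Vale.Agent.P282A14.Jet
import Vale.Agent.P282A14.Inv
import Vale.Agent.P282A53.Sqrt
import Vale.Agent.P282A74.Cpl
import Vale.Agent.P282A7.Rad

/-!
P282, analytic double points: the equivalent forms.
-/

open IsLocalRing

namespace Vale.Agent.P282A71

variable {N n : ℕ} {R : Type} [CommRing R] [IsDomain R] [IsLocalRing R] [Algebra ℂ R]

theorem formal_iff (hn : 2 ≤ n) [IsNoetherianRing R] {y : Fin N → R} (h : IsModel y) :
    (P282.Gap.IsODP R n ↔ AnIso (relations y) (coneIdeal n)) ∧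
    (P282.Gap.IsODP R n ↔ Biholo (locus (relations y)) (cone n)) :=
  have h1 := odp_iff P282A14.jet cpl sqrt inv hn h
  ⟨h1, h1.trans ⟨biholo_of P282A14.jet hn h, of_biholo P282A14.jet (rad7 P282A14.jet) hn h⟩⟩

theorem anODP_iff (hn : 2 ≤ n) (he : Algebra.EssFiniteType ℂ R)
    (hr : Function.Surjective (algebraMap ℂ (ResidueField R))) :
    IsAnODP R n ↔ P282.Gap.IsODP R n := by
  have := Algebra.EssFiniteType.isNoetherianRing ℂ R
  refine ⟨fun ⟨_, _, h, e⟩ => (formal_iff hn h).2.2 e, fun e => ?_⟩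
  obtain ⟨N, y, h⟩ := model14 R he hr
  exact ⟨N, y, h, (formal_iff hn h).2.1 e⟩

theorem tfae (hn : 2 ≤ n) (he : Algebra.EssFiniteType ℂ R)
    (hr : Function.Surjective (algebraMap ℂ (ResidueField R))) {y : Fin N → R} (h : IsModel y) :
    (IsAnODP R n ↔ Biholo (locus (relations y)) (cone n)) ∧
    (IsAnODP R n ↔ AnIso (relations y) (coneIdeal n)) := by
  have := Algebra.EssFiniteType.isNoetherianRing ℂ R
  rw [anODP_iff hn he hr]
  exact (formal_iff hn h).symm

end Vale.Agent.P282A71
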