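import Mathlib

/-!
P282: the analytic germ of a variety at a closed point
-/

open Filter Topology IsLocalRing MvPolynomial

namespace Vale.Agent.P282A71

/-- The functions on `ℂ ^ N` which are holomorphic near the origin. -/
def Hol (N : ℕ) : Subalgebra ℂ ((Fin N → ℂ) → ℂ) where
  carrier := {f | AnalyticAt ℂ f 0}
  mul_mem' := fun hf hg => hf.mul hg
  add_mem' := fun hf hg => hf.add hg
  algebraMap_mem' := fun _ => analyticAt_const

/-- The ideal generated by the holomorphic functions whose germ at the origin is the germ of a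
polynomial of `I` (it contains the functions with zero germ). -/
def anIdeal {N : ℕ} (I : Ideal (MvPolynomial (Fin N) ℂ)) : Ideal (Hol N) :=
  Ideal.span {f | ∃ p ∈ I, (f : (Fin N → ℂ) → ℂ) =ᶠ[𝓝 0] fun z => eval z p}

/-- The local ring `𝒪_{ℂ^N, 0} / I 𝒪_{ℂ^N, 0}` at the origin of the complex analytic space defined
by the ideal `I` in `ℂ ^ N`. -/
abbrev AnRing {N : ℕ} (I : Ideal (MvPolynomial (Fin N) ℂ)) : Type := Hol N ⧸ anIdeal I

/-- The zero set of `I` in `ℂ ^ N`. -/
def locus {N : ℕ} (I : Ideal (MvPolynomial (Fin N) ℂ)) : Set (Fin N → ℂ) :=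
  {z | ∀ p ∈ I, eval z p = 0}

/-- The ideal of the cone `z₀² + ⋯ + zₙ² = 0` in `ℂ ^ (n + 1)`. -/
noncomputable def coneIdeal (n : ℕ) : Ideal (MvPolynomial (Fin (n + 1)) ℂ) :=
  Ideal.span {∑ i, X i ^ 2}

variable {R : Type} [CommRing R] [IsLocalRing R] [Algebra ℂ R] {N : ℕ}

/-- An affine model of the germ: `R` is the local ring at the origin of the subvariety of `ℂ ^ N`
defined by the ideal `relations y`, and the `y i` are the coordinate functions. -/
structure IsModel (y : Fin N → R) : Prop where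
  center : ∀ i, y i ∈ maximalIdeal R
  frac : ∀ f : R, ∃ a b : MvPolynomial (Fin N) ℂ, IsUnit (aeval y b) ∧ f * aeval y b = aeval y a

/-- The ideal of the affine model. -/
noncomputable def relations (y : Fin N → R) : Ideal (MvPolynomial (Fin N) ℂ) :=
  RingHom.ker (aeval y : MvPolynomial (Fin N) ℂ →ₐ[ℂ] R)

/-- The local rings at the origin of the complex analytic spaces defined by `I` and by `J` are
isomorphic. -/
def AnIso {N M : ℕ} (I : Ideal (MvPolynomial (Fin N) ℂ)) (J : Ideal (MvPolynomial (Fin M) ℂ)) :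
    Prop :=
  Nonempty (AnRing I ≃ₐ[ℂ] AnRing J)

/-- The germs at the origin of the sets `V ⊆ ℂ ^ N` and `W ⊆ ℂ ^ M` are biholomorphic: there are
holomorphic maps `φ`, `ψ` near the origins which restrict to mutually inverse maps between `V` and
`W` near the origins. -/
def Biholo {N M : ℕ} (V : Set (Fin N → ℂ)) (W : Set (Fin M → ℂ)) : Prop :=
  ∃ (φ : (Fin N → ℂ) → Fin M → ℂ) (ψ : (Fin M → ℂ) → Fin N → ℂ),
    AnalyticAt ℂ φ 0 ∧ AnalyticAt ℂ ψ 0 ∧ φ 0 = 0 ∧ ψ 0 = 0 ∧
    (∀ᶠ z in 𝓝[V] 0, φ z ∈ W ∧ ψ (φ z) = z) ∧ ∀ᶠ w in 𝓝[W] 0, ψ w ∈ V ∧ φ (ψ w) = w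

/-- The cone `z₀² + ⋯ + zₙ² = 0` in `ℂ ^ (n + 1)`. -/
def cone (n : ℕ) : Set (Fin (n + 1) → ℂ) := {z | ∑ i, z i ^ 2 = 0}

/-- `R` is an ordinary double point of dimension `n`: the germ at the origin of an affine model is
biholomorphic to the germ of the cone at its vertex. -/
def IsAnODP (R : Type) [CommRing R] [IsLocalRing R] [Algebra ℂ R] (n : ℕ) : Prop :=
  ∃ (N : ℕ) (y : Fin N → R), IsModel y ∧ Biholo (locus (relations y)) (cone n)

end Vale.Agent.P282A71
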