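import Vale.Agent.P282A71.Kit

/-!
P282, analytic double points: homomorphisms of analytic local rings and holomorphic map germs.
-/

open Filter Topology IsLocalRing MvPolynomial
open Vale.Agent.P298.H941

noncomputable section

namespace Vale.Agent.P282A71

variable {N M : ℕ}

theorem mem_mx {J : Ideal (ON N)} (hJ : J ≤ maximalIdeal (ON N)) (x : ON N ⧸ J) :
    x ∈ mx J ↔ ¬ IsUnit x := by
  obtain ⟨a, rfl⟩ := Ideal.Quotient.mk_surjective x
  rw [← pow_one (mx J), mem_mx_pow, pow_one, sup_eq_left.2 hJ]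
  refine ⟨fun h1 h2 => ?_, fun h1 h2 => h1 (h2.map _)⟩
  obtain ⟨b, hb⟩ := h2.exists_right_inv
  obtain ⟨b, rfl⟩ := Ideal.Quotient.mk_surjective b
  have h3 : a * b - 1 ∈ J := Ideal.Quotient.eq.1 hb
  have h4 := sub_mem (Ideal.mul_mem_right b _ h1) (hJ h3)
  rw [sub_sub_cancel] at h4
  exact h4 isUnit_one

theorem exists_mx {J : Ideal (ON N)} {x : ON N ⧸ J} (hx : x ∈ mx J) :
    ∃ a ∈ maximalIdeal (ON N), Ideal.Quotient.mk J a = x :=
  (Ideal.mem_map_iff_of_surjective _ Ideal.Quotient.mk_surjective).1 hx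

theorem exists_const {J : Ideal (ON N)} (x : ON N ⧸ J) :
    ∃ c : ℂ, x - algebraMap ℂ _ c ∈ mx J := by
  obtain ⟨a, rfl⟩ := Ideal.Quotient.mk_surjective x
  refine ⟨ev0 _ a, Ideal.mem_map_of_mem _ (x := a - algebraMap ℂ _ (ev0 _ a)) ?_⟩
  rw [P298.H941.mem_maximalIdeal, map_sub, AlgHom.commutes]
  exact sub_self _

theorem exists_map {J : Ideal (ON M)} (v : Fin N → ON M ⧸ J) (hv : ∀ i, v i ∈ mx J) :
    ∃ (g : (Fin M → ℂ) → Fin N → ℂ) (hg : AnalyticAt ℂ g 0) (h0 : g 0 = 0),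
      ∀ i, Ideal.Quotient.mk J (pull g hg h0 (zc i)) = v i := by
  choose a ha e using fun i => exists_mx (hv i)
  obtain ⟨g, hg, h0, h⟩ := exists_sub a ha
  exact ⟨g, hg, h0, fun i => by rw [h, e]⟩

theorem surj (hJ : JET) (hI : INV) {J : Ideal (ON N)} (π : ON M →ₐ[ℂ] ON N ⧸ J)
    (h : ∀ a, ∃ γ : Fin M → ℂ, Ideal.Quotient.mk J (zc a) -
      ∑ i, algebraMap ℂ _ (γ i) * π (zc i) ∈ mx J ^ 2) : Function.Surjective π := by
  choose γ hγ using h
  have h1 : ∀ a, ∃ b ∈ maximalIdeal (ON N) ^ 2, Ideal.Quotient.mk J b =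
      Ideal.Quotient.mk J (zc a) - ∑ i, algebraMap ℂ _ (γ a i) * π (zc i) := fun a => by
    have h2 := hγ a
    rw [mx, ← Ideal.map_pow] at h2
    exact (Ideal.mem_map_iff_of_surjective _ Ideal.Quotient.mk_surjective).1 h2
  choose b hb e using h1
  have hm : ∀ a, zc a - b a ∈ maximalIdeal (ON N) := fun a =>
    sub_mem (zc_mem a) (Ideal.pow_le_self two_ne_zero (hb a))
  obtain ⟨g, hg, h0, hgz⟩ := exists_sub (fun a => zc a - b a) hm
  obtain ⟨c, hc, c0, hcz⟩ := exists_sub (fun a => ∑ i, algebraMap ℂ (ON M) (γ a i) * zc i)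
    fun a => sum_mem fun i _ => Ideal.mul_mem_left _ _ (zc_mem i)
  have h2 : (Ideal.Quotient.mkₐ ℂ J).comp (pull g hg h0) = π.comp (pull c hc c0) := by
    refine hom_ext hJ (fun a => ?_) fun a => ?_
    · rw [AlgHom.comp_apply, AlgHom.comp_apply, hgz, hcz, Ideal.Quotient.mkₐ_eq_mk, map_sub, e,
        sub_sub_cancel, map_sum]
      exact Finset.sum_congr rfl fun i _ => by rw [map_mul, AlgHom.commutes]
    · rw [AlgHom.comp_apply, hgz]
      exact Ideal.mem_map_of_mem _ (hm a)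
  have h3 := hI N g hg h0 fun a => by
    rw [hgz, sub_sub_cancel_left]
    exact neg_mem (hb a)
  intro x
  obtain ⟨x, rfl⟩ := Ideal.Quotient.mk_surjective x
  obtain ⟨x, rfl⟩ := h3 x
  exact ⟨_, (DFunLike.congr_fun h2 x).symm⟩

theorem morse (hS : SQRT) {J : Ideal (ON N)} {v : Fin M → ON N ⧸ J} (hv : ∀ i, v i ∈ mx J)
    (hq : ∑ i, v i ^ 2 ∈ mx J * Ideal.span (Set.range v) * Ideal.span (Set.range v)) :
    ∃ w : Fin M → ON N ⧸ J, (∀ i, w i - v i ∈ mx J ^ 2) ∧ ∑ i, w i ^ 2 = 0 := by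
  obtain ⟨c, hc, e⟩ := span_mul_exists v _ hq
  choose d hd e' using fun i => span_mul_exists v _ (hc i)
  choose H hH eH using fun i j => exists_mx (hd i j)
  let t : ON N := algebraMap ℂ _ (-1 / 2)
  obtain ⟨S, hS1, hS2⟩ := hS N M (Matrix.of fun i j => t * (H i j + H j i))
    (Matrix.IsSymm.ext fun i j => by simp only [Matrix.of_apply, add_comm])
    fun i j => by
      rw [Matrix.of_apply]
      exact Ideal.mul_mem_left _ _ (add_mem (hH i j) (hH j i))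
  let T : Matrix (Fin M) (Fin M) (ON N ⧸ J) := (Ideal.Quotient.mk J).mapMatrix S
  let D : Matrix (Fin M) (Fin M) (ON N ⧸ J) := Matrix.of d
  let s : ON N ⧸ J := algebraMap ℂ _ (-1 / 2)
  have hT : (1 + T).transpose * (1 + T) = 1 + s • (D + D.transpose) := by
    have h1 := congrArg (Ideal.Quotient.mk J).mapMatrix hS2
    rw [map_mul, map_add, map_add, map_one, Matrix.transpose_add, map_add, Matrix.transpose_one,
      map_one] at h1
    rw [Matrix.transpose_add, Matrix.transpose_one]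
    refine h1.trans (congrArg _ ?_)
    ext i j
    simp only [RingHom.mapMatrix_apply, Matrix.map_apply, Matrix.of_apply, map_mul, map_add, eH,
      Matrix.smul_apply, Matrix.add_apply, Matrix.transpose_apply, smul_eq_mul, D]
    rfl
  refine ⟨(1 + T).mulVec v, fun i => ?_, ?_⟩
  · rw [Matrix.add_mulVec, Matrix.one_mulVec, Pi.add_apply, add_sub_cancel_left, pow_two]
    change ∑ j, Ideal.Quotient.mk J (S i j) * v j ∈ _
    exact sum_mem fun j _ => Ideal.mul_mem_mul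
      (Ideal.mem_map_of_mem (Ideal.Quotient.mk J) (hS1 i j)) (hv j)
  · have h1 : ∀ u : Fin M → ON N ⧸ J, ∑ i, u i ^ 2 = u ⬝ᵥ u := fun u =>
      Finset.sum_congr rfl fun i _ => pow_two _
    have h2 : v ⬝ᵥ D.mulVec v = v ⬝ᵥ v := by
      rw [← h1, e]
      exact Finset.sum_congr rfl fun i _ => by rw [e', mul_comm]; rfl
    have h3 : v ⬝ᵥ D.transpose.mulVec v = v ⬝ᵥ v := by
      rw [Matrix.dotProduct_mulVec, Matrix.vecMul_transpose, dotProduct_comm, h2]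
    have h4 : s * 2 = -1 := by
      rw [← map_ofNat (algebraMap ℂ (ON N ⧸ J)) 2, ← map_mul]
      norm_num
    rw [h1, Matrix.dotProduct_mulVec, ← Matrix.vecMul_transpose, Matrix.vecMul_vecMul,
      ← Matrix.dotProduct_mulVec, hT, Matrix.add_mulVec, Matrix.one_mulVec, Matrix.smul_mulVec,
      Matrix.add_mulVec, dotProduct_add, dotProduct_smul, dotProduct_add, h2, h3, smul_eq_mul]
    linear_combination (v ⬝ᵥ v) * h4

theorem inj_of_jets (hJ : JET) {J : Ideal (ON N)} {L : Ideal (ON M)}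
    (π : (ON M ⧸ L) →ₐ[ℂ] ON N ⧸ J) (hπ : Function.Surjective π)
    (hm : ∀ i, π (Ideal.Quotient.mk L (zc i)) ∈ mx J)
    (he : ∀ k, Nonempty (((ON N ⧸ J) ⧸ mx J ^ k) ≃ₐ[ℂ] (ON M ⧸ L) ⧸ mx L ^ k)) :
    Function.Injective π := by
  rw [injective_iff_map_eq_zero]
  intro x hx
  refine krull L fun k => ?_
  obtain ⟨e⟩ := he k
  have := noeth M
  have h1 : mx L ^ k ≤ (mx J ^ k).comap π := fun z hz => by
    rw [mx, ← Ideal.map_pow] at hz
    obtain ⟨a, ha, rfl⟩ := (Ideal.mem_map_iff_of_surjective _ Ideal.Quotient.mk_surjective).1 hz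
    exact hom_pow hJ (f := π.comp (Ideal.Quotient.mkₐ ℂ L)) hm k ha
  let p := Ideal.quotientMapₐ (mx J ^ k) π h1
  have hp : Function.Surjective p := fun z => by
    obtain ⟨z, rfl⟩ := Ideal.Quotient.mk_surjective z
    obtain ⟨z, rfl⟩ := hπ z
    exact ⟨Ideal.Quotient.mk _ z, rfl⟩
  have h2 := inj_of_surj (e.toAlgHom.comp p).toRingHom (e.surjective.comp hp)
  refine Ideal.Quotient.eq_zero_iff_mem.1 (h2 ?_)
  change e (Ideal.Quotient.mk _ (π x)) = e (p 0)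
  rw [hx, map_zero, map_zero p]

/-! the zero sets -/

theorem van {I : Ideal (MvPolynomial (Fin N) ℂ)} {f : (Fin N → ℂ) → ℂ} {hf : AnalyticAt ℂ f 0}
    (h : mk f hf ∈ ex I) : ∀ᶠ z in 𝓝[locus I] 0, f z = 0 := by
  have key : ∀ x ∈ ex I, ∀ (f : (Fin N → ℂ) → ℂ) (hf : AnalyticAt ℂ f 0), mk f hf = x →
      ∀ᶠ z in 𝓝[locus I] 0, f z = 0 := fun x hx => by
    refine Submodule.span_induction ?_ (fun f hf e => ?_) ?_ ?_ hx
    · rintro _ ⟨p, hp, rfl⟩ f hf e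
      have e1 : mk f hf = mk _ (ana_eval p 0) := e.trans (pl_eq p)
      filter_upwards [nhdsWithin_le_nhds ((mk_eq_iff _ _).1 e1), self_mem_nhdsWithin] with z h1 h2
      exact h1.trans (h2 p hp)
    · exact nhdsWithin_le_nhds ((mk_eq_zero_iff hf).1 e)
    · intro a b _ _ ha hb f hf e
      obtain ⟨g, hg, rfl⟩ := exists_rep a
      obtain ⟨k, hk, rfl⟩ := exists_rep b
      rw [mk_add] at e
      filter_upwards [nhdsWithin_le_nhds ((mk_eq_iff _ _).1 e), ha g hg rfl, hb k hk rfl]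
        with z h1 h2 h3
      rw [h1, h2, h3, add_zero]
    · intro a b _ hb f hf e
      obtain ⟨g, hg, rfl⟩ := exists_rep a
      obtain ⟨k, hk, rfl⟩ := exists_rep b
      rw [smul_eq_mul, mk_mul] at e
      filter_upwards [nhdsWithin_le_nhds ((mk_eq_iff _ _).1 e), hb k hk rfl] with z h1 h3
      rw [h1, h3, mul_zero]
  exact key _ h f hf rfl

theorem half (hJ : JET) {I : Ideal (MvPolynomial (Fin N) ℂ)} {L : Ideal (MvPolynomial (Fin M) ℂ)}
    (hI : ex I ≤ maximalIdeal (ON N)) (hL : ex L ≤ maximalIdeal (ON M))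
    (e : (ON N ⧸ ex I) ≃ₐ[ℂ] ON M ⧸ ex L) :
    ∃ (ψ : (Fin M → ℂ) → Fin N → ℂ) (hψ : AnalyticAt ℂ ψ 0) (h0 : ψ 0 = 0),
      (∀ a, Ideal.Quotient.mk _ (pull ψ hψ h0 a) = e (Ideal.Quotient.mk _ a)) ∧
      ∀ᶠ w in 𝓝[locus L] 0, ψ w ∈ locus I := by
  have hm : ∀ i, e (Ideal.Quotient.mk _ (zc i)) ∈ mx (ex L) := fun i => by
    rw [mem_mx hL, MulEquiv.isUnit_map, ← mem_mx hI]
    exact Ideal.mem_map_of_mem _ (zc_mem i)
  obtain ⟨ψ, hψ, h0, h⟩ := exists_map _ hm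
  have h1 : (Ideal.Quotient.mkₐ ℂ (ex L)).comp (pull ψ hψ h0) =
      e.toAlgHom.comp (Ideal.Quotient.mkₐ ℂ (ex I)) := hom_ext hJ h fun i => h i ▸ hm i
  have h2 : ∀ a, Ideal.Quotient.mk _ (pull ψ hψ h0 a) = e (Ideal.Quotient.mk _ a) := fun a =>
    DFunLike.congr_fun h1 a
  refine ⟨ψ, hψ, h0, h2, ?_⟩
  obtain ⟨s, hs⟩ := (IsNoetherian.noetherian I : I.FG)
  have h3 : ∀ p ∈ s, ∀ᶠ w in 𝓝[locus L] 0, eval (ψ w) p = 0 := fun p hp => by
    have h4 := h2 (pl N p)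
    have h6 : pl N p ∈ ex I := Ideal.mem_map_of_mem (pl N) (hs ▸ Submodule.subset_span hp : p ∈ I)
    rw [Ideal.Quotient.eq_zero_iff_mem.2 h6, map_zero, Ideal.Quotient.eq_zero_iff_mem, pl_eq,
      pull_mk] at h4
    exact van h4
  filter_upwards [(eventually_all_finset s).2 h3] with w hw p hp
  have h5 : I ≤ RingHom.ker (eval (ψ w)) := by
    rw [← hs]
    exact Submodule.span_le.2 fun p hp => hw p hp
  exact h5 hp

theorem biholo_of_iso (hJ : JET) {I : Ideal (MvPolynomial (Fin N) ℂ)}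
    {L : Ideal (MvPolynomial (Fin M) ℂ)} (hI : ex I ≤ maximalIdeal (ON N))
    (hL : ex L ≤ maximalIdeal (ON M)) (e : (ON N ⧸ ex I) ≃ₐ[ℂ] ON M ⧸ ex L) :
    Biholo (locus I) (locus L) := by
  obtain ⟨ψ, hψ, ψ0, h1, h2⟩ := half hJ hI hL e
  obtain ⟨φ, hφ, φ0, h3, h4⟩ := half hJ hL hI e.symm
  refine ⟨φ, ψ, hφ, hψ, φ0, ψ0, h4.and ?_, h2.and ?_⟩
  · have h5 : ∀ i, ∀ᶠ z in 𝓝[locus I] 0, ψ (φ z) i - z i = 0 := fun i => by
      have h6 := h3 (pull ψ hψ ψ0 (zc i))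
      rw [h1, e.symm_apply_apply, Ideal.Quotient.eq, zc, pull_mk, pull_mk, mk_sub] at h6
      exact van h6
    filter_upwards [eventually_all.2 h5] with z hz
    exact funext fun i => sub_eq_zero.1 (hz i)
  · have h5 : ∀ i, ∀ᶠ z in 𝓝[locus L] 0, φ (ψ z) i - z i = 0 := fun i => by
      have h6 := h1 (pull φ hφ φ0 (zc i))
      rw [h3, e.apply_symm_apply, Ideal.Quotient.eq, zc, pull_mk, pull_mk, mk_sub] at h6
      exact van h6
    filter_upwards [eventually_all.2 h5] with z hz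
    exact funext fun i => sub_eq_zero.1 (hz i)

/-- holomorphic functions which vanish on the zero set lie in the extended ideal -/
def Rad (I : Ideal (MvPolynomial (Fin N) ℂ)) : Prop :=
  ∀ (f : (Fin N → ℂ) → ℂ) (hf : AnalyticAt ℂ f 0), (∀ᶠ z in 𝓝[locus I] 0, f z = 0) →
    mk f hf ∈ ex I

theorem lift_map {I : Ideal (MvPolynomial (Fin N) ℂ)} {L : Ideal (MvPolynomial (Fin M) ℂ)}
    (hL : Rad L) {ψ : (Fin M → ℂ) → Fin N → ℂ} (hψ : AnalyticAt ℂ ψ 0) (h0 : ψ 0 = 0)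
    (h : ∀ᶠ w in 𝓝[locus L] 0, ψ w ∈ locus I) : ∃ α : (ON N ⧸ ex I) →ₐ[ℂ] ON M ⧸ ex L,
      ∀ a, α (Ideal.Quotient.mk _ a) = Ideal.Quotient.mk _ (pull ψ hψ h0 a) := by
  have h1 : ex I ≤ (ex L).comap (pull ψ hψ h0) := by
    rw [ex, Ideal.map_le_iff_le_comap]
    intro p hp
    rw [Ideal.mem_comap, Ideal.mem_comap, pl_eq, pull_mk]
    exact hL _ _ (h.mono fun w hw => hw p hp)
  exact ⟨Ideal.quotientMapₐ _ _ h1, fun _ => rfl⟩

theorem iso_of_biholo {I : Ideal (MvPolynomial (Fin N) ℂ)} {L : Ideal (MvPolynomial (Fin M) ℂ)}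
    (hI : Rad I) (hL : Rad L) (h : Biholo (locus I) (locus L)) :
    Nonempty ((ON N ⧸ ex I) ≃ₐ[ℂ] ON M ⧸ ex L) := by
  obtain ⟨φ, ψ, hφ, hψ, φ0, ψ0, h1, h2⟩ := h
  obtain ⟨α, hα⟩ := lift_map hL hψ ψ0 (h2.mono fun _ h => h.1)
  obtain ⟨β, hβ⟩ := lift_map hI hφ φ0 (h1.mono fun _ h => h.1)
  refine ⟨AlgEquiv.ofAlgHom α β (AlgHom.ext fun x => ?_) (AlgHom.ext fun x => ?_)⟩
  · obtain ⟨x, rfl⟩ := Ideal.Quotient.mk_surjective x
    obtain ⟨f, hf, rfl⟩ := exists_rep x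
    rw [AlgHom.comp_apply, hβ, hα, AlgHom.id_apply, Ideal.Quotient.eq, pull_mk, pull_mk, mk_sub]
    exact hL _ _ (h2.mono fun w hw => by rw [hw.2, sub_self])
  · obtain ⟨x, rfl⟩ := Ideal.Quotient.mk_surjective x
    obtain ⟨f, hf, rfl⟩ := exists_rep x
    rw [AlgHom.comp_apply, hα, hβ, AlgHom.id_apply, Ideal.Quotient.eq, pull_mk, pull_mk, mk_sub]
    exact hI _ _ (h1.mono fun w hw => by rw [hw.2, sub_self])

end Vale.Agent.P282A71
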