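import Vale.Agent.P282A71.Sk

/-!
P282, analytic double points: jets, substitution, the map to the analytic local ring.
-/

open Filter Topology IsLocalRing MvPolynomial
open Vale.Agent.P298.H941

set_option linter.unusedSectionVars false

noncomputable section

namespace Vale.Agent.P282A71

section jets

variable {R S T : Type} [CommRing R] [CommRing S] [CommRing T] [Algebra ℂ R] [Algebra ℂ S]
  [Algebra ℂ T]

theorem JetIso.comp {f : R →ₐ[ℂ] S} {g : S →ₐ[ℂ] T} {m : Ideal R} {n : Ideal S} {p : Ideal T}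
    (hg : JetIso g n p) (hf : JetIso f m n) : JetIso (g.comp f) m p := by
  refine ⟨fun k x => (hg.mem k (f x)).trans (hf.mem k x), fun k t => ?_⟩
  obtain ⟨s, hs⟩ := hg.dense k t
  obtain ⟨x, hx⟩ := hf.dense k s
  refine ⟨x, ?_⟩
  have h := add_mem hs ((hg.mem k _).2 hx)
  rwa [map_sub, sub_add_sub_cancel] at h

theorem JetIso.of_equiv (e : R ≃ₐ[ℂ] S) {m : Ideal R} {n : Ideal S} (h : ∀ x, e x ∈ n ↔ x ∈ m) :
    JetIso (e : R →ₐ[ℂ] S) m n := by
  have h1 : n = m.map e := by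
    ext s
    obtain ⟨x, rfl⟩ := e.surjective s
    rw [h]
    exact (Ideal.apply_mem_of_equiv_iff (f := e.toRingEquiv)).symm
  refine ⟨fun k x => ?_, fun k s => ⟨e.symm s, by simp⟩⟩
  rw [h1, ← Ideal.map_pow]
  exact Ideal.apply_mem_of_equiv_iff (f := e.toRingEquiv)

theorem JetIso.quot {f : R →ₐ[ℂ] S} {m : Ideal R} {n : Ideal S} (h : JetIso f m n) (k : ℕ) :
    Nonempty ((R ⧸ m ^ k) ≃ₐ[ℂ] S ⧸ n ^ k) := by
  refine ⟨AlgEquiv.ofBijective (Ideal.quotientMapₐ (n ^ k) f fun x hx => (h.mem k x).2 hx)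
    ⟨?_, fun s => ?_⟩⟩
  · rw [injective_iff_map_eq_zero]
    intro x hx
    obtain ⟨x, rfl⟩ := Ideal.Quotient.mk_surjective x
    exact Ideal.Quotient.eq_zero_iff_mem.2 ((h.mem k x).1 (Ideal.Quotient.eq_zero_iff_mem.1 hx))
  · obtain ⟨s, rfl⟩ := Ideal.Quotient.mk_surjective s
    obtain ⟨x, hx⟩ := h.dense k s
    exact ⟨Ideal.Quotient.mk _ x, (Ideal.Quotient.eq.2 hx).symm⟩

theorem inj_of_surj [IsNoetherianRing R] (f : R →+* R) (hf : Function.Surjective f) :
    Function.Injective f := by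
  have hm : Monotone fun k : ℕ => RingHom.ker (f ^ k) := monotone_nat_of_le_succ fun k x hx => by
    rw [RingHom.mem_ker] at hx ⊢
    rw [pow_succ', RingHom.mul_def, RingHom.comp_apply, hx, map_zero]
  obtain ⟨k, hk⟩ := monotone_stabilizes_iff_noetherian.2 (inferInstance : IsNoetherian R R) ⟨_, hm⟩
  rw [injective_iff_map_eq_zero]
  intro x hx
  have hs : Function.Surjective (f ^ k : R →+* R) := by
    rw [RingHom.coe_pow]
    exact hf.iterate k
  obtain ⟨z, rfl⟩ := hs x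
  have h1 : z ∈ RingHom.ker (f ^ (k + 1)) := by
    rw [RingHom.mem_ker, pow_succ', RingHom.mul_def, RingHom.comp_apply, hx]
  have h2 : RingHom.ker (f ^ k) = RingHom.ker (f ^ (k + 1)) := hk (k + 1) (Nat.le_succ k)
  rw [← h2] at h1
  exact h1

theorem span_mul_exists {m : ℕ} (z : Fin m → R) (J : Ideal R) {x : R}
    (hx : x ∈ J * Ideal.span (Set.range z)) :
    ∃ c : Fin m → R, (∀ i, c i ∈ J) ∧ x = ∑ i, c i * z i := by
  refine Submodule.mul_induction_on hx (fun a ha b hb => ?_) ?_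
  · obtain ⟨c, rfl⟩ := Ideal.mem_span_range_iff_exists_fun.1 hb
    exact ⟨fun i => a * c i, fun i => J.mul_mem_right _ ha, by
      rw [Finset.mul_sum]; exact Finset.sum_congr rfl fun i _ => (mul_assoc _ _ _).symm⟩
  · rintro _ _ ⟨c, hc, rfl⟩ ⟨d, hd, rfl⟩
    exact ⟨fun i => c i + d i, fun i => add_mem (hc i) (hd i), by
      rw [← Finset.sum_add_distrib]; exact Finset.sum_congr rfl fun i _ => (add_mul _ _ _).symm⟩

end jets

variable {N M : ℕ}

theorem ana_eval (p : MvPolynomial (Fin N) ℂ) (x : Fin N → ℂ) :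
    AnalyticAt ℂ (fun z : Fin N → ℂ => eval z p) x := by
  induction p using MvPolynomial.induction_on with
  | C a => simpa using analyticAt_const
  | add p q hp hq => simpa using hp.fun_add hq
  | mul_X p i hp => simpa using hp.fun_mul (ana_proj i x)

theorem pl_eq (p : MvPolynomial (Fin N) ℂ) : pl N p = mk (fun z => eval z p) (ana_eval p 0) := by
  induction p using MvPolynomial.induction_on with
  | C a =>
    rw [pl, aeval_C, P298.H941.algebraMap_eq]
    exact mk_congr _ _ (.of_forall fun z => by simp)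
  | add p q hp hq =>
    rw [map_add, hp, hq, mk_add]
    exact mk_congr _ _ (.of_forall fun z => by simp)
  | mul_X p i hp =>
    rw [map_mul, hp, pl, aeval_X, zc, mk_mul]
    exact mk_congr _ _ (.of_forall fun z => by simp)

theorem pl_X (i : Fin N) : pl N (X i) = zc i := aeval_X _ _

theorem zc_mem (i : Fin N) : zc i ∈ maximalIdeal (ON N) := (P298.H941.mem_maximalIdeal _).2 rfl

theorem exists_sub (u : Fin N → ON M) (hu : ∀ i, u i ∈ maximalIdeal (ON M)) :
    ∃ (g : (Fin M → ℂ) → Fin N → ℂ) (hg : AnalyticAt ℂ g 0) (h0 : g 0 = 0),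
      ∀ i, pull g hg h0 (zc i) = u i := by
  choose f hf e using fun i => exists_rep (u i)
  refine ⟨fun z i => f i z, analyticAt_pi_iff.2 hf, funext fun i => ?_, fun i => e i⟩
  have h := (P298.H941.mem_maximalIdeal _).1 (hu i)
  rwa [← e, ev0_mk] at h

theorem pull_mem {g : (Fin M → ℂ) → Fin N → ℂ} (hg : AnalyticAt ℂ g 0) (h0 : g 0 = 0) (a : ON N) :
    pull g hg h0 a ∈ maximalIdeal (ON M) ↔ a ∈ maximalIdeal (ON N) := by
  rw [P298.H941.mem_maximalIdeal, P298.H941.mem_maximalIdeal, ev0_pull]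

theorem noeth (N : ℕ) : IsNoetherianRing (ON N) := P277Z.Oka.noe _

/-- the maximal ideal of the quotient -/
def mx (J : Ideal (ON N)) : Ideal (ON N ⧸ J) := (maximalIdeal (ON N)).map (Ideal.Quotient.mk J)

theorem mem_mx_pow {J : Ideal (ON N)} {k : ℕ} {a : ON N} :
    Ideal.Quotient.mk J a ∈ mx J ^ k ↔ a ∈ maximalIdeal (ON N) ^ k ⊔ J := by
  rw [mx, ← Ideal.map_pow, ← Ideal.mem_comap, Ideal.comap_map_of_surjective _
    Ideal.Quotient.mk_surjective, ← RingHom.ker_eq_comap_bot, Ideal.mk_ker]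

theorem krull (J : Ideal (ON N)) {x : ON N ⧸ J} (h : ∀ k, x ∈ mx J ^ k) : x = 0 := by
  rcases subsingleton_or_nontrivial (ON N ⧸ J) with h1 | h1
  · exact Subsingleton.elim _ _
  have := noeth N
  have := IsLocalRing.of_surjective' (Ideal.Quotient.mk J) Ideal.Quotient.mk_surjective
  have h2 : mx J = maximalIdeal (ON N ⧸ J) :=
    map_maximalIdeal_of_surjective _ Ideal.Quotient.mk_surjective
  have h3 := Ideal.iInf_pow_eq_bot_of_isLocalRing (mx J) (h2 ▸ (maximalIdeal.isMaximal _).ne_top)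
  rw [← Ideal.mem_bot, ← h3]
  exact Ideal.mem_iInf.2 h

theorem hom_pow (hJ : JET) {B : Type} [CommRing B] [Algebra ℂ B] {n : Ideal B}
    {f : ON N →ₐ[ℂ] B} (hf : ∀ i, f (zc i) ∈ n) (k : ℕ) {a : ON N}
    (ha : a ∈ maximalIdeal (ON N) ^ k) : f a ∈ n ^ k := by
  have h1 : (maximalIdeal (ON N)).map f ≤ n := by
    rw [(hJ N).1, Ideal.map_span, Ideal.span_le]
    rintro _ ⟨_, ⟨i, rfl⟩, rfl⟩
    exact hf i
  refine Ideal.pow_right_mono h1 k ?_
  rw [← Ideal.map_pow]
  exact Ideal.mem_map_of_mem _ ha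

theorem hom_ext (hJ : JET) {J : Ideal (ON M)} {f g : ON N →ₐ[ℂ] ON M ⧸ J}
    (h : ∀ i, f (zc i) = g (zc i)) (hm : ∀ i, f (zc i) ∈ mx J) : f = g := by
  ext a
  rw [← sub_eq_zero]
  refine krull J fun k => ?_
  obtain ⟨p, hp⟩ := (hJ N).2.dense k a
  have h1 : f.comp (pl N) = g.comp (pl N) :=
    MvPolynomial.algHom_ext fun i => by simpa only [AlgHom.comp_apply, pl_X] using h i
  have h2 : f (pl N p) = g (pl N p) := DFunLike.congr_fun h1 p
  have h3 := sub_mem (hom_pow hJ hm k hp) (hom_pow hJ (f := g) (fun i => h i ▸ hm i) k hp)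
  rwa [map_sub, map_sub, h2, sub_sub_sub_cancel_right] at h3

theorem an_equiv (I : Ideal (MvPolynomial (Fin N) ℂ)) :
    Nonempty (AnRing I ≃ₐ[ℂ] ON N ⧸ ex I) := by
  let q : Hol N →ₐ[ℂ] ON N :=
    { toFun := fun f => mk f.1 f.2
      map_one' := rfl
      map_mul' := fun _ _ => rfl
      map_zero' := rfl
      map_add' := fun _ _ => rfl
      commutes' := fun _ => rfl }
  have hq : Function.Surjective q := fun a => by
    obtain ⟨f, hf, e⟩ := exists_rep a
    exact ⟨⟨f, hf⟩, e⟩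
  let π : Hol N →ₐ[ℂ] ON N ⧸ ex I := (Ideal.Quotient.mkₐ ℂ (ex I)).comp q
  have hπ : Function.Surjective π := Ideal.Quotient.mk_surjective.comp hq
  have hk : RingHom.ker π = anIdeal I := by
    have h1 : (anIdeal I).map q = ex I := by
      refine le_antisymm ?_ ?_
      · rw [anIdeal, Ideal.map_span, Ideal.span_le]
        rintro _ ⟨f, ⟨p, hp, e⟩, rfl⟩
        have h2 : q f = pl N p := by
          rw [pl_eq]
          exact mk_congr f.2 _ e
        rw [h2]
        exact Ideal.mem_map_of_mem _ hp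
      · rw [ex, Ideal.map_le_iff_le_comap]
        intro p hp
        rw [Ideal.mem_comap, pl_eq]
        exact Ideal.mem_map_of_mem q (x := (⟨_, ana_eval p 0⟩ : Hol N))
          (Ideal.subset_span ⟨p, hp, EventuallyEq.rfl⟩)
    have h2 : RingHom.ker q ≤ anIdeal I := fun f hf =>
      Ideal.subset_span ⟨0, I.zero_mem, by
        have h3 : mk f.1 f.2 = 0 := hf
        filter_upwards [(mk_eq_zero_iff f.2).1 h3] with z hz
        simpa using hz⟩
    ext f
    rw [RingHom.mem_ker]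
    change Ideal.Quotient.mk (ex I) (q f) = 0 ↔ _
    rw [Ideal.Quotient.eq_zero_iff_mem, ← h1, ← Ideal.mem_comap,
      Ideal.comap_map_of_surjective _ hq, ← RingHom.ker_eq_comap_bot, sup_eq_left.2 h2]
  exact ⟨(Ideal.quotientEquivAlgOfEq ℂ hk.symm).trans (Ideal.quotientKerAlgEquivOfSurjective hπ)⟩

theorem approx (hJ : JET) (I : Ideal (MvPolynomial (Fin N) ℂ)) (k : ℕ) {x : ON N}
    (hx : x ∈ ex I) : ∃ p ∈ I, x - pl N p ∈ maximalIdeal (ON N) ^ k := by
  refine Submodule.span_induction (fun _ ⟨p, hp, e⟩ => ⟨p, hp, by simp [← e]⟩)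
    ⟨0, I.zero_mem, by simp⟩ ?_ ?_ hx
  · rintro a b - - ⟨p, hp, h1⟩ ⟨q, hq, h2⟩
    refine ⟨p + q, I.add_mem hp hq, ?_⟩
    have := add_mem h1 h2
    rwa [map_add, add_sub_add_comm]
  · rintro c a - ⟨p, hp, h1⟩
    obtain ⟨d, hd⟩ := (hJ N).2.dense k c
    refine ⟨d * p, I.mul_mem_left _ hp, ?_⟩
    have e : c • a - pl N (d * p) = c * (a - pl N p) + pl N p * (c - pl N d) := by
      rw [map_mul, smul_eq_mul]; ring
    rw [e]
    exact add_mem (Ideal.mul_mem_left _ _ h1) (Ideal.mul_mem_left _ _ hd)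

section model

variable {R : Type} [CommRing R] [IsLocalRing R] [Algebra ℂ R] {y : Fin N → R}

theorem IsModel.pow (h : IsModel y) (k : ℕ) {p : MvPolynomial (Fin N) ℂ}
    (hp : p ∈ Ideal.span (Set.range (X : Fin N → MvPolynomial (Fin N) ℂ)) ^ k) :
    aeval y p ∈ maximalIdeal R ^ k := by
  have h1 : (Ideal.span (Set.range (X : Fin N → MvPolynomial (Fin N) ℂ))).map (aeval y) ≤
      maximalIdeal R := by
    rw [Ideal.map_span, Ideal.span_le]
    rintro _ ⟨_, ⟨i, rfl⟩, rfl⟩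
    simpa using h.center i
  refine Ideal.pow_right_mono h1 k ?_
  rw [← Ideal.map_pow]
  exact Ideal.mem_map_of_mem _ hp

theorem IsModel.mem_iff (hJ : JET) (h : IsModel y) (p : MvPolynomial (Fin N) ℂ) :
    aeval y p ∈ maximalIdeal R ↔ pl N p ∈ maximalIdeal (ON N) := by
  have h1 : pl N (p - C (eval 0 p)) ∈ maximalIdeal (ON N) ^ 1 := by
    rw [pow_one, P298.H941.mem_maximalIdeal, pl_eq, ev0_mk]
    simp
  have h2 := h.pow 1 (((hJ N).2.mem 1 _).1 h1)
  rw [pow_one, map_sub, aeval_C] at h2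
  rw [P298.H941.mem_maximalIdeal, pl_eq, ev0_mk]
  refine ⟨fun h3 => ?_, fun h3 => by rwa [h3, map_zero, sub_zero] at h2⟩
  by_contra h4
  have h5 := sub_mem h3 h2
  rw [sub_sub_cancel] at h5
  exact h5 ((IsUnit.mk0 _ h4).map (algebraMap ℂ R))

theorem IsModel.exists_iota (hJ : JET) (h : IsModel y) :
    ∃ ι : R →ₐ[ℂ] ON N ⧸ ex (relations y),
      (∀ p, ι (aeval y p) = Ideal.Quotient.mk _ (pl N p)) ∧
      JetIso ι (maximalIdeal R) (mx (ex (relations y))) := by
  let ψ : MvPolynomial (Fin N) ℂ →ₐ[ℂ] ON N ⧸ ex (relations y) :=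
    (Ideal.Quotient.mkₐ ℂ _).comp (pl N)
  let W : Submonoid (MvPolynomial (Fin N) ℂ) := (IsUnit.submonoid R).comap (aeval y)
  have hW : ∀ b, IsUnit (aeval y b) → IsUnit (ψ b) := fun b hb => by
    have h1 : IsUnit (pl N b) := by
      by_contra h2
      exact (h.mem_iff hJ b).2 h2 hb
    exact h1.map (Ideal.Quotient.mkₐ ℂ (ex (relations y)))
  let lam : Localization W →ₐ[ℂ] R := IsLocalization.liftAlgHom (M := W) (f := aeval y)
    fun b => b.2
  let mu : Localization W →ₐ[ℂ] ON N ⧸ ex (relations y) :=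
    IsLocalization.liftAlgHom (M := W) (f := ψ) fun b => hW b b.2
  have hl : ∀ p, lam (algebraMap (MvPolynomial (Fin N) ℂ) _ p) = aeval y p := fun p =>
    IsLocalization.lift_eq _ p
  have hm : ∀ p, mu (algebraMap (MvPolynomial (Fin N) ℂ) _ p) = ψ p := fun p =>
    IsLocalization.lift_eq _ p
  have hs : Function.Surjective lam := fun r => by
    obtain ⟨a, b, hb, e⟩ := h.frac r
    refine ⟨IsLocalization.mk' _ a (⟨b, hb⟩ : W), hb.mul_right_cancel ?_⟩
    rw [e, ← hl b, ← map_mul, IsLocalization.mk'_spec _ a (⟨b, hb⟩ : W), hl]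
  have hk : ∀ x ∈ RingHom.ker lam, mu x = 0 := fun x hx => by
    obtain ⟨⟨a, b⟩, e⟩ := IsLocalization.surj W x
    have h1 : a ∈ relations y := by
      have h2 := congrArg lam e
      rw [map_mul, (RingHom.mem_ker.1 hx), zero_mul, hl] at h2
      exact h2.symm
    have h2 := congrArg mu e
    rw [map_mul, hm, hm] at h2
    refine (hW b b.2).mul_right_cancel ?_
    rw [h2, zero_mul]
    exact Ideal.Quotient.eq_zero_iff_mem.2 (Ideal.mem_map_of_mem _ h1)
  let ι : R →ₐ[ℂ] ON N ⧸ ex (relations y) := (Ideal.Quotient.liftₐ (RingHom.ker lam) mu hk).comp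
    (Ideal.quotientKerAlgEquivOfSurjective hs).symm
  have hι : ∀ p, ι (aeval y p) = ψ p := fun p => by
    have h1 : (Ideal.quotientKerAlgEquivOfSurjective hs).symm (aeval y p) =
        Ideal.Quotient.mk _ (algebraMap (MvPolynomial (Fin N) ℂ) _ p) := by
      rw [AlgEquiv.symm_apply_eq, ← hl]
      rfl
    change Ideal.Quotient.liftₐ (RingHom.ker lam) mu hk
      ((Ideal.quotientKerAlgEquivOfSurjective hs).symm (aeval y p)) = _
    rw [h1, ← hm]
    rfl
  refine ⟨ι, hι, fun k r => ⟨fun hr => ?_, fun hr => ?_⟩, fun k s => ?_⟩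
  · obtain ⟨a, b, hb, e⟩ := h.frac r
    have h1 : ψ a ∈ mx (ex (relations y)) ^ k := by
      rw [← hι, ← e, map_mul]
      exact Ideal.mul_mem_right _ _ hr
    obtain ⟨g, hg, x, hx, e1⟩ := Submodule.mem_sup.1 (mem_mx_pow.1 h1)
    obtain ⟨p, hp, h2⟩ := approx hJ _ k hx
    have h3 : pl N (a - p) ∈ maximalIdeal (ON N) ^ k := by
      have := add_mem hg h2
      rw [← add_sub_assoc, e1] at this
      rw [map_sub]
      exact this
    have h4 := h.pow k (((hJ N).2.mem k _).1 h3)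
    rw [map_sub, RingHom.mem_ker.1 hp, sub_zero, ← e] at h4
    exact (Ideal.mul_unit_mem_iff_mem _ hb).1 h4
  · have h1 : (maximalIdeal R).map ι ≤ mx (ex (relations y)) := by
      rw [Ideal.map_le_iff_le_comap]
      intro r hr
      obtain ⟨a, b, hb, e⟩ := h.frac r
      have h2 : ψ a ∈ mx (ex (relations y)) := Ideal.mem_map_of_mem _
        ((h.mem_iff hJ a).1 (e ▸ Ideal.mul_mem_right _ _ hr))
      rw [← hι, ← e, map_mul, hι] at h2
      exact (Ideal.mul_unit_mem_iff_mem _ (hW b hb)).1 h2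
    refine Ideal.pow_right_mono h1 k ?_
    rw [← Ideal.map_pow]
    exact Ideal.mem_map_of_mem _ hr
  · obtain ⟨s, rfl⟩ := Ideal.Quotient.mk_surjective s
    obtain ⟨p, hp⟩ := (hJ N).2.dense k s
    refine ⟨aeval y p, ?_⟩
    rw [hι]
    exact (mem_mx_pow (a := s - pl N p)).2 (Ideal.mem_sup_left hp)

end model

end Vale.Agent.P282A71
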