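import Vale.Agent.P282A71.Hom
import Vale.Agent.P282W.Cone2

/-!
P282, analytic double points: formal and analytic ordinary double points agree.
-/

open Filter Topology IsLocalRing MvPolynomial
open Vale.Agent.P298.H941 Vale.Agent.P282.Gap Vale.Agent.P282.CV Vale.Agent.P282.Full

noncomputable section

namespace Vale.Agent.P282A71

variable {N n : ℕ} {R : Type} [CommRing R] [IsLocalRing R] [Algebra ℂ R]

theorem IsModel.ex_le (hJ : JET) {y : Fin N → R} (h : IsModel y) :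
    ex (relations y) ≤ maximalIdeal (ON N) := by
  rw [ex, Ideal.map_le_iff_le_comap]
  intro p hp
  refine (h.mem_iff hJ p).1 ?_
  rw [RingHom.mem_ker.1 hp]
  exact zero_mem _

theorem IsModel.rad (hJ : JET) (hR : RAD) [IsDomain R] {y : Fin N → R} (h : IsModel y) :
    Rad (relations y) := by
  refine hR N _ (RingHom.ker_isPrime _) fun p hp => ?_
  have h1 := h.ex_le hJ (Ideal.mem_map_of_mem (pl N) hp)
  rwa [P298.H941.mem_maximalIdeal, pl_eq, ev0_mk] at h1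

theorem exists_cone_model (hn : 2 ≤ n) :
    ∃ (R : Type) (_ : CommRing R) (_ : IsDomain R) (_ : IsLocalRing R) (_ : Algebra ℂ R)
      (u : Fin (n + 1) → R), IsNoetherianRing R ∧ IsModel u ∧ relations u = coneIdeal n ∧
        P282.Gap.IsODP R n := by
  obtain ⟨R, _, _, _, _, u, h⟩ := P282W.exists_cone hn
  refine ⟨R, _, inferInstance, inferInstance, _, u, h.noeth,
    ⟨fun i => h.span ▸ Ideal.subset_span ⟨i, rfl⟩, fun f => ?_⟩, ?_, h.odp⟩
  · obtain ⟨G, -, H, hH, e⟩ := h.pow 0 f (by simp)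
    exact ⟨G, H, h.unit hH, e⟩
  · ext G
    exact (h.ker G).trans Ideal.mem_span_singleton.symm

theorem locus_cone (n : ℕ) : locus (coneIdeal n) = {z | ∑ i, z i ^ 2 = 0} := by
  ext z
  refine ⟨fun h => ?_, fun h p hp => ?_⟩
  · simpa using h _ (Ideal.mem_span_singleton_self _)
  · obtain ⟨c, rfl⟩ := Ideal.mem_span_singleton'.1 hp
    have h1 : ∑ i, z i ^ 2 = 0 := h
    simp [h1]

theorem odp_of_iso (hJ : JET) (hC : CPL) (hn : 2 ≤ n) {y : Fin N → R} (h : IsModel y)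
    (e : (ON N ⧸ ex (relations y)) ≃ₐ[ℂ] ON (n + 1) ⧸ ex (coneIdeal n)) :
    P282.Gap.IsODP R n := by
  obtain ⟨R₀, _, _, _, _, u, -, hu, e0, ⟨e1⟩⟩ := exists_cone_model hn
  revert e
  rw [← e0]
  intro e
  obtain ⟨ι, -, hι⟩ := h.exists_iota hJ
  obtain ⟨ι₀, -, hι₀⟩ := hu.exists_iota hJ
  have h1 := (JetIso.of_equiv e (m := mx _) (n := mx _) fun x => by
    rw [mem_mx (h.ex_le hJ), mem_mx (hu.ex_le hJ), MulEquiv.isUnit_map]).comp hι
  obtain ⟨e2⟩ := hC _ _ _ _ _ h1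
  obtain ⟨e3⟩ := hC _ _ _ _ _ hι₀
  exact ⟨e2.trans (e3.symm.trans e1)⟩

theorem iso_of_odp (hJ : JET) (hS : SQRT) (hI : INV) (hn : 2 ≤ n) [IsNoetherianRing R]
    {y : Fin N → R} (h : IsModel y) (ho : P282.Gap.IsODP R n) :
    Nonempty ((ON N ⧸ ex (relations y)) ≃ₐ[ℂ] ON (n + 1) ⧸ ex (coneIdeal n)) := by
  obtain ⟨R₀, _, _, _, _, u₀, _, hu₀, e0, ho₀⟩ := exists_cone_model hn
  obtain ⟨ι, hy, hι⟩ := h.exists_iota hJ
  obtain ⟨ι₀, -, hι₀⟩ := hu₀.exists_iota hJ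
  obtain ⟨j, hj⟩ := exists_jet ho
  obtain ⟨j₀, hj₀⟩ := exists_jet ho₀
  choose u hu using fun i => hj.dense 2 (qx n i)
  have hum : ∀ i, u i ∈ maximalIdeal R := fun i => pt_mem_max hj one_le_two (hu i)
  have hsp := pt_span hj hu
  have hq : ∑ i, u i ^ 2 ∈ maximalIdeal R ^ 3 := by
    rw [← hj.mem, map_sum]
    have h2 : ∀ i, (qx n i + j (u i)) * (qx n i - j (u i)) = qx n i ^ 2 - j (u i ^ 2) := by
      intro i; rw [map_pow]; ring
    have h1 : ∑ i, j (u i ^ 2) = -∑ i, (qx n i + j (u i)) * (qx n i - j (u i)) := by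
      rw [Finset.sum_congr rfl fun i _ => h2 i, Finset.sum_sub_distrib, pt_sum_qx, zero_sub,
        neg_neg]
    rw [h1, pow_succ' (qm n) 2]
    refine neg_mem (sum_mem fun i _ => Ideal.mul_mem_mul (add_mem (pt_qx_mem i) ?_) (hu i))
    have h3 := (hj.mem 1 _).2 (by rw [pow_one]; exact hum i)
    rwa [pt_pow_one] at h3
  have hv : ∀ i, ι (u i) ∈ mx (ex (relations y)) := fun i => by
    have h3 := (hι.mem 1 _).2 (by rw [pow_one]; exact hum i)
    rwa [pow_one] at h3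
  have hz : ∀ a, ∃ c : Fin (n + 1) → ON N ⧸ ex (relations y),
      Ideal.Quotient.mk _ (zc a) = ∑ i, c i * ι (u i) := fun a => by
    obtain ⟨c, hc⟩ := Ideal.mem_span_range_iff_exists_fun.1 (hsp (h.center a))
    refine ⟨fun i => ι (c i), ?_⟩
    rw [← pl_X, ← hy, aeval_X, ← hc, map_sum]
    exact Finset.sum_congr rfl fun i _ => map_mul _ _ _
  have hle : mx (ex (relations y)) ≤ Ideal.span (Set.range fun i => ι (u i)) := by
    rw [mx, (hJ N).1, Ideal.map_span, Ideal.span_le]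
    rintro _ ⟨_, ⟨a, rfl⟩, rfl⟩
    obtain ⟨c, hc⟩ := hz a
    exact Ideal.mem_span_range_iff_exists_fun.2 ⟨c, hc.symm⟩
  obtain ⟨w, hw, hw0⟩ := morse hS hv (by
    have h3 := (hι.mem 3 _).2 hq
    rw [map_sum, pow_succ, pow_two] at h3
    simp only [map_pow] at h3
    exact Ideal.mul_mono (Ideal.mul_mono le_rfl hle) hle h3)
  have hwm : ∀ i, w i ∈ mx (ex (relations y)) := fun i => by
    have h3 := add_mem (Ideal.pow_le_self two_ne_zero (hw i)) (hv i)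
    rwa [sub_add_cancel] at h3
  obtain ⟨g, hg, g0, hgw⟩ := exists_map w hwm
  let π : ON (n + 1) →ₐ[ℂ] ON N ⧸ ex (relations y) :=
    (Ideal.Quotient.mkₐ ℂ _).comp (pull g hg g0)
  have hπ : ∀ i, π (zc i) = w i := hgw
  have hs : Function.Surjective π := surj hJ hI π fun a => by
    obtain ⟨c, hc⟩ := hz a
    choose γ hγ using fun i => exists_const (c i)
    refine ⟨γ, ?_⟩
    rw [hc, ← Finset.sum_sub_distrib]
    refine sum_mem fun i _ => ?_
    have h3 : c i * ι (u i) - algebraMap ℂ _ (γ i) * π (zc i) =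
        (c i - algebraMap ℂ _ (γ i)) * ι (u i) - algebraMap ℂ _ (γ i) * (w i - ι (u i)) := by
      rw [hπ]; ring
    rw [h3]
    exact sub_mem (pow_two (mx (ex (relations y))) ▸ Ideal.mul_mem_mul (hγ i) (hv i))
      (Ideal.mul_mem_left _ _ (hw i))
  have hk : ∀ a ∈ ex (coneIdeal n), π a = 0 := fun a ha => by
    rw [ex, coneIdeal, Ideal.map_span, Set.image_singleton] at ha
    obtain ⟨c, rfl⟩ := Ideal.mem_span_singleton'.1 ha
    rw [map_mul, map_sum, map_sum]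
    simp only [map_pow, pl_X, hπ, hw0, mul_zero]
  let p := Ideal.Quotient.liftₐ (ex (coneIdeal n)) π hk
  have hp : Function.Surjective p := fun x => by
    obtain ⟨x, rfl⟩ := hs x
    exact ⟨Ideal.Quotient.mk _ x, rfl⟩
  refine ⟨(AlgEquiv.ofBijective p ⟨inj_of_jets hJ p hp (fun i => hπ i ▸ hwm i) fun k => ?_,
    hp⟩).symm⟩
  obtain ⟨e1⟩ := hι.quot k
  obtain ⟨e2⟩ := JetIso.quot ⟨hj.mem, hj.dense⟩ k
  obtain ⟨e3⟩ := JetIso.quot ⟨hj₀.mem, hj₀.dense⟩ k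
  obtain ⟨e4⟩ := hι₀.quot k
  rw [← e0]
  exact ⟨e1.symm.trans (e2.trans (e3.symm.trans e4))⟩

theorem anIso_iff {M : ℕ} (I : Ideal (MvPolynomial (Fin N) ℂ))
    (L : Ideal (MvPolynomial (Fin M) ℂ)) :
    AnIso I L ↔ Nonempty ((ON N ⧸ ex I) ≃ₐ[ℂ] ON M ⧸ ex L) := by
  obtain ⟨e1⟩ := an_equiv I
  obtain ⟨e2⟩ := an_equiv L
  exact ⟨fun ⟨e⟩ => ⟨e1.symm.trans (e.trans e2)⟩, fun ⟨e⟩ => ⟨e1.trans (e.trans e2.symm)⟩⟩

theorem odp_iff (hJ : JET) (hC : CPL) (hS : SQRT) (hI : INV) (hn : 2 ≤ n) [IsNoetherianRing R]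
    {y : Fin N → R} (h : IsModel y) :
    P282.Gap.IsODP R n ↔ AnIso (relations y) (coneIdeal n) := by
  rw [anIso_iff]
  exact ⟨iso_of_odp hJ hS hI hn h, fun ⟨e⟩ => odp_of_iso hJ hC hn h e⟩

theorem biholo_of (hJ : JET) (hn : 2 ≤ n) {y : Fin N → R} (h : IsModel y)
    (e : AnIso (relations y) (coneIdeal n)) :
    Biholo (locus (relations y)) {z : Fin (n + 1) → ℂ | ∑ i, z i ^ 2 = 0} := by
  obtain ⟨R₀, _, _, _, _, u, -, hu, e0, -⟩ := exists_cone_model hn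
  obtain ⟨e⟩ := (anIso_iff _ _).1 e
  rw [← locus_cone]
  exact biholo_of_iso hJ (h.ex_le hJ) (e0 ▸ hu.ex_le hJ) e

theorem of_biholo (hJ : JET) (hR : RAD) (hn : 2 ≤ n) [IsDomain R] {y : Fin N → R} (h : IsModel y)
    (e : Biholo (locus (relations y)) {z : Fin (n + 1) → ℂ | ∑ i, z i ^ 2 = 0}) :
    AnIso (relations y) (coneIdeal n) := by
  obtain ⟨R₀, _, _, _, _, u, -, hu, e0, -⟩ := exists_cone_model hn
  rw [← locus_cone] at e
  exact (anIso_iff _ _).2 (iso_of_biholo (h.rad hJ hR) (e0 ▸ hu.rad hJ hR) e)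

end Vale.Agent.P282A71
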