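import Vale.Agent.P282A71.Sk2

/-!
P282: the local ring of a normal variety at a closed point
-/

open CategoryTheory AlgebraicGeometry IsLocalRing TopologicalSpace Order

namespace Vale.Agent.P282A71

namespace OV

theorem dim_alg (k A K : Type) [Field k] [CommRing A] [IsDomain A] [Algebra k A]
    [Algebra.FiniteType k A] [Field K] [Algebra A K] [IsFractionRing A K] [Algebra k K]
    [IsScalarTower k A K] : ∃ s : ℕ, Algebra.trdeg k K = s ∧ ringKrullDim A = s ∧
      Algebra.trdeg k A = s := by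
  obtain ⟨s, g, ginj, gint⟩ := exists_integral_inj_algHom_of_fg k A
  let P := MvPolynomial (Fin s) k
  let _ : Algebra P A := g.toRingHom.toAlgebra
  have : Algebra.IsIntegral P A := ⟨gint⟩
  have : IsScalarTower k P A := .of_algebraMap_eq fun c => (g.commutes c).symm
  have : FaithfulSMul P A := (faithfulSMul_iff_algebraMap_injective _ _).2 ginj
  have h0 : Algebra.trdeg k A = s := by
    rw [← trdeg_add_eq k P (A := A), trdeg_eq_zero (R := P), add_zero,
      MvPolynomial.trdeg_of_isDomain]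
    simp
  refine ⟨s, ?_, ?_, h0⟩
  · have := IsLocalization.isAlgebraic K (nonZeroDivisors A)
    rw [← trdeg_add_eq k A (A := K), trdeg_eq_zero (R := A), add_zero, h0]
  have h : ringKrullDim P = s := by
    rw [MvPolynomial.ringKrullDim_of_isNoetherianRing, ringKrullDim_eq_zero_of_field]
    simp
  rw [← h]
  refine le_antisymm (Order.krullDim_le_of_strictMono
    (fun p => PrimeSpectrum.comap (algebraMap P A) p) fun p q hpq =>
      Ideal.IsIntegral.comap_lt_comap hpq) (iSup_le fun l => ?_)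
  obtain ⟨Q, hQ⟩ := RingHom.IsIntegral.comap_surjective (f := algebraMap P A) gint ginj l.head
  have hlo : Q.asIdeal.LiesOver l.head.asIdeal := ⟨by rw [← hQ]; rfl⟩
  obtain ⟨L, hL, -⟩ := Ideal.exists_ltSeries_of_hasGoingUp l Q.asIdeal
  rw [← hL]
  exact Order.LTSeries.length_le_krullDim L

variable {X : Scheme.{0}} (f : X ⟶ Spec (CommRingCat.of ℂ))

theorem le_pre (U : X.Opens) : U ≤ f ⁻¹ᵁ ⊤ := le_top

/-- the constants -/
noncomputable def cst (U : X.Opens) : ℂ →+* Γ(X, U) :=
  ((Scheme.ΓSpecIso (CommRingCat.of ℂ)).inv ≫ f.appLE ⊤ U (le_pre f U)).hom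

/-- the constants in a stalk -/
noncomputable def cs (x : X) : ℂ →+* X.presheaf.stalk x :=
  ((Scheme.ΓSpecIso (CommRingCat.of ℂ)).inv ≫ f.appTop ≫ X.presheaf.germ ⊤ x trivial).hom

theorem cst_finiteType [LocallyOfFiniteType f] {U : X.Opens} (hU : IsAffineOpen U) :
    (cst f U).FiniteType := by
  have h1 : (f.appLE ⊤ U (le_pre f U)).hom.FiniteType :=
    LocallyOfFiniteType.finiteType_appLE f (isAffineOpen_top _) hU (le_pre f U)
  have h2 : (Scheme.ΓSpecIso (CommRingCat.of ℂ)).inv.hom.FiniteType :=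
    RingHom.FiniteType.of_surjective _
      (Scheme.ΓSpecIso (CommRingCat.of ℂ)).symm.commRingCatIsoToRingEquiv.surjective
  exact h1.comp h2

theorem germ_cst (U : X.Opens) (x : X) (h : x ∈ U) (c : ℂ) :
    X.presheaf.germ U x h (cst f U c) = cs f x c := by
  have h6 := X.presheaf.germ_res (homOfLE (le_pre f U)) x h
  exact congrArg (fun g => g.hom (f.appTop.hom
    ((Scheme.ΓSpecIso (CommRingCat.of ℂ)).inv.hom c))) h6

variable [IsIntegral X] [LocallyOfFiniteType f]

theorem dim_chart {U : X.Opens} (hU : IsAffineOpen U) [Nonempty U] :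
    ∃ s : ℕ, (letI := (cs f (genericPoint X)).toAlgebra; Algebra.trdeg ℂ X.functionField = s) ∧
      ringKrullDim Γ(X, U) = s ∧ (letI := (cst f U).toAlgebra; Algebra.trdeg ℂ Γ(X, U) = s) := by
  let _ := (cst f U).toAlgebra
  let _ : Algebra ℂ X.functionField := (cs f (genericPoint X)).toAlgebra
  have : Algebra.FiniteType ℂ Γ(X, U) := cst_finiteType f hU
  have := functionField_isFractionRing_of_isAffineOpen X U hU
  have : IsScalarTower ℂ Γ(X, U) X.functionField :=
    .of_algebraMap_eq fun c => (germ_cst f U _ _ c).symm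
  exact dim_alg ℂ Γ(X, U) X.functionField

omit [IsIntegral X] in
theorem ch (x : X) : ∃ U : X.Opens, IsAffineOpen U ∧ x ∈ U := by
  obtain ⟨_, ⟨U, hU, rfl⟩, hx, -⟩ :=
    X.isBasis_affineOpens.exists_subset_of_mem_open (Set.mem_univ x) isOpen_univ
  exact ⟨U, hU, hx⟩

theorem dim_eq {U : X.Opens} (hU : IsAffineOpen U) [Nonempty U] :
    ∃ s : ℕ, topologicalKrullDim X = s ∧
      (letI := (cst f U).toAlgebra; Algebra.trdeg ℂ Γ(X, U) = s) := by
  obtain ⟨s, h1, h2, h0⟩ := dim_chart f hU
  refine ⟨s, le_antisymm ?_ ?_, h0⟩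
  · have e : topologicalKrullDim X = krullDim X :=
      Order.krullDim_eq_of_orderIso (irreducibleSetEquivPoints (α := X))
    rw [e, Order.krullDim_eq_iSup_coheight]
    refine iSup_le fun x => ?_
    obtain ⟨W, hW, hx⟩ := ch x
    have : Nonempty W := ⟨⟨_, hx⟩⟩
    obtain ⟨s', h3, h4, -⟩ := dim_chart f hW
    obtain rfl : s = s' := by exact_mod_cast h1.symm.trans h3
    have h5 := hW.isLocalization_stalk ⟨x, hx⟩
    let _ := TopCat.Presheaf.algebra_section_stalk X.presheaf (U := W) ⟨x, hx⟩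
    rw [← ringKrullDim_stalk_eq_coheight, ← h4, IsLocalization.AtPrime.ringKrullDim_eq_height
      (hW.primeIdealOf ⟨x, hx⟩).asIdeal (X.presheaf.stalk x)]
    exact Ideal.height_le_ringKrullDim_of_isPrime
  · rw [← h2, ← PrimeSpectrum.topologicalKrullDim_eq_ringKrullDim]
    exact hU.fromSpec.isOpenEmbedding.isInducing.topologicalKrullDim_le

theorem loc {A R : Type} [CommRing A] [IsDomain A] [Algebra ℂ A] [Algebra.FiniteType ℂ A]
    [CommRing R] [IsDomain R] [IsLocalRing R] [Algebra ℂ R] [Algebra A R] [IsScalarTower ℂ A R]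
    (m : Ideal A) [m.IsMaximal] [IsLocalization.AtPrime R m] :
    Algebra.EssFiniteType ℂ R ∧ Function.Surjective (algebraMap ℂ (ResidueField R)) ∧
      Algebra.trdeg ℂ R = Algebra.trdeg ℂ A := by
  refine ⟨?_, fun z => ?_, ?_⟩
  · have := Algebra.EssFiniteType.of_isLocalization R m.primeCompl
    exact Algebra.EssFiniteType.comp ℂ A R
  · obtain ⟨a, rfl⟩ := (IsLocalization.AtPrime.equivQuotMaximalIdeal m R).surjective z
    let _ := Ideal.Quotient.field m
    have : Module.Finite ℂ (A ⧸ m) := finite_of_finite_type_of_isJacobsonRing ℂ (A ⧸ m)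
    obtain ⟨c, rfl⟩ := (IsAlgClosed.algebraMap_bijective_of_isIntegral (k := ℂ) (K := A ⧸ m)).2 a
    exact ⟨c, congrArg (residue R) (IsScalarTower.algebraMap_apply ℂ A R c)⟩
  · have := IsLocalization.isAlgebraic R m.primeCompl
    have : FaithfulSMul A R := (faithfulSMul_iff_algebraMap_injective _ _).2
      (IsLocalization.injective R m.primeCompl_le_nonZeroDivisors)
    rw [← trdeg_add_eq ℂ A (A := R), trdeg_eq_zero (R := A), add_zero]

end OV

open OV in
theorem ofvar : OFVAR := by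
  intro R _ _ _ _ n X f x h
  have := h.integral
  have := h.finiteType
  obtain ⟨e, he⟩ := h.stalk
  obtain ⟨U, hU, hx⟩ := ch x
  have : Nonempty U := ⟨⟨_, hx⟩⟩
  obtain ⟨s, h1, h2⟩ := dim_eq f hU
  obtain rfl : n = s := by exact_mod_cast h.dim.symm.trans h1
  let _ := (cst f U).toAlgebra
  have : Algebra.FiniteType ℂ Γ(X, U) := cst_finiteType f hU
  have h5 := hU.isLocalization_stalk ⟨x, hx⟩
  let _ := TopCat.Presheaf.algebra_section_stalk X.presheaf (U := U) ⟨x, hx⟩
  let _ : Algebra Γ(X, U) R :=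
    (e.symm.toRingHom.comp (algebraMap Γ(X, U) (X.presheaf.stalk x))).toAlgebra
  have : IsScalarTower ℂ Γ(X, U) R := .of_algebraMap_eq fun c =>
    (e.eq_symm_apply.2 ((he c).trans (germ_cst f U x hx c).symm))
  have hm : (hU.primeIdealOf ⟨x, hx⟩).asIdeal.IsMaximal := hU.primeIdealOf_isMaximal_of_isClosed
    ⟨x, hx⟩ h.closed
  have : IsLocalization.AtPrime R (hU.primeIdealOf ⟨x, hx⟩).asIdeal :=
    IsLocalization.isLocalization_of_algEquiv _ (S := X.presheaf.stalk x)
      { e.symm with commutes' := fun _ => rfl }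
  obtain ⟨h6, h7, h8⟩ := loc (R := R) (hU.primeIdealOf ⟨x, hx⟩).asIdeal
  have := h.normal x
  exact ⟨h6, IsIntegrallyClosed.of_equiv e.symm, h7, h8.trans h2⟩

end Vale.Agent.P282A71
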