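import Vale.Agent.P282A71.Var

/-!
P282: varieties and their local rings, the statements of the rows
-/

open CategoryTheory AlgebraicGeometry IsLocalRing

namespace Vale.Agent.P282A71

/-- ROW OFVAR -/
def OFVAR : Prop :=
  ∀ (R : Type) [CommRing R] [IsDomain R] [IsLocalRing R] [Algebra ℂ R] (n : ℕ) (X : Scheme.{0})
    (f : X ⟶ Spec (CommRingCat.of ℂ)) (x : X), IsPointOf R n f x →
    Algebra.EssFiniteType ℂ R ∧ IsIntegrallyClosed R ∧
      Function.Surjective (algebraMap ℂ (ResidueField R)) ∧ Algebra.trdeg ℂ R = n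

/-- ROW NORM: a normal affine model -/
def NORM : Prop :=
  ∀ (R : Type) [CommRing R] [IsDomain R] [IsLocalRing R] [Algebra ℂ R],
    Algebra.EssFiniteType ℂ R → IsIntegrallyClosed R →
    Function.Surjective (algebraMap ℂ (ResidueField R)) →
    ∃ A : Subalgebra ℂ R, A.FG ∧ IsIntegrallyClosed A ∧
      ∃ (m : Ideal A) (_ : m.IsMaximal), IsLocalization.AtPrime R m

/-- ROW TOVAR -/
def TOVAR : Prop :=
  ∀ (R : Type) [CommRing R] [IsDomain R] [IsLocalRing R] [Algebra ℂ R] (n : ℕ)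
    (A : Subalgebra ℂ R), A.FG → IsIntegrallyClosed A → ∀ (m : Ideal A) [m.IsMaximal],
    IsLocalization.AtPrime R m → Algebra.trdeg ℂ R = n →
    ∃ (X : Scheme.{0}) (f : X ⟶ Spec (CommRingCat.of ℂ)) (x : X), IsPointOf R n f x

end Vale.Agent.P282A71
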