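import Mathlib

/-!
P282: local rings of normal complex varieties at closed points
-/

open CategoryTheory AlgebraicGeometry

namespace Vale.Agent.P282A71

/-- `X` is a normal complex variety of dimension `n` (an integral separated scheme of finite type
over `ℂ` with normal local rings), `x` is a closed point of `X` and `R` is the `ℂ`-algebra
`𝒪_{X,x}`. -/
structure IsPointOf (R : Type) [CommRing R] [Algebra ℂ R] (n : ℕ) {X : Scheme.{0}}
    (f : X ⟶ Spec (CommRingCat.of ℂ)) (x : X) : Prop where
  integral : IsIntegral X
  separated : IsSeparated f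
  finiteType : LocallyOfFiniteType f
  compact : QuasiCompact f
  normal : ∀ y : X, IsIntegrallyClosed (X.presheaf.stalk y)
  dim : topologicalKrullDim X = n
  closed : IsClosed ({x} : Set X)
  stalk : ∃ e : R ≃+* X.presheaf.stalk x, ∀ c : ℂ, e (algebraMap ℂ R c) =
    X.presheaf.germ ⊤ x trivial (f.appTop ((Scheme.ΓSpecIso (CommRingCat.of ℂ)).inv c))

end Vale.Agent.P282A71
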